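import Vale.Agent.P102.SF.Alg

/-! The static theorem: a mixing transformation whose `L²` space sits in the span of a group of
unimodular functions on which the transformation acts is mixing of all orders. -/

set_option linter.unusedSectionVars false

namespace Vale.Agent.P102.SF

open MeasureTheory Filter Topology Vale.Agent.P102.Ext
open scoped ComplexConjugate

/-- bounded measurable complex functions -/
def BM {X : Type*} [MeasurableSpace X] (f : X → ℂ) : Prop :=
  Measurable f ∧ ∃ C : ℝ, ∀ x, ‖f x‖ ≤ C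

variable {X G : Type*} [MeasurableSpace X] [MeasurableSpace G]

/-- the coefficient of `f ∘ x` at the unimodular function `e u` -/
noncomputable def coef {A : Type*} (ω : Measure G) (x : G → X) (e : A → G → ℂ) (f : X → ℂ)
    (u : A) : ℂ := ∫ g, f (x g) * conj (e u g) ∂ω

/-- The static structure. `e u` (for `u` in an abelian group `A`) are unimodular functions on a
probability space `G` which maps onto `X` by `x`, multiplicative up to a phase and orthogonal,
and `β` describes the action of `T` on their projections to `X`. -/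
structure Static (ω : Measure G) (T : X ≃ᵐ X) (x : G → X) (A : Type*) [AddCommGroup A] where
  e : A → G → ℂ
  β : A ≃ₗ[ℤ] A
  meas : ∀ u, Measurable (e u)
  norm : ∀ u g, ‖e u g‖ = 1
  add : ∀ u v, ∃ c : ℂ, ‖c‖ = 1 ∧ ∀ᵐ g ∂ω, e (u + v) g = c * (e u g * e v g)
  orth : ∀ u, u ≠ 0 → ∫ g, e u g ∂ω = 0
  equiv : ∀ f : X → ℂ, BM f → ∀ u,
    ‖coef ω x e (fun y => f (T y)) (β u)‖ = ‖coef ω x e f u‖

/-- the function `f ∘ x` is in the closed span of the functions `e u` -/
def Static.Spanned {ω : Measure G} {T : X ≃ᵐ X} {x : G → X} {A : Type*} [AddCommGroup A]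
    (S : Static ω T x A) (f : X → ℂ) : Prop :=
  ∀ ε : ℝ, 0 < ε → ∃ s : Finset A, ∫ g, ‖f (x g) - ∑ u ∈ s, coef ω x S.e f u * S.e u g‖ ^ 2 ∂ω ≤ ε

theorem BM.comp {Y : Type*} [MeasurableSpace Y] {f : X → ℂ} (hf : BM f) {h : Y → X}
    (hh : Measurable h) : BM (fun y => f (h y)) := by
  obtain ⟨h1, C, h2⟩ := hf
  exact ⟨h1.comp hh, C, fun y => h2 _⟩

theorem BM.mul {f g : X → ℂ} (hf : BM f) (hg : BM g) : BM (fun y => f y * g y) := by
  obtain ⟨h1, C, h2⟩ := hf
  obtain ⟨h3, D, h4⟩ := hg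
  refine ⟨h1.mul h3, C * D, fun y => ?_⟩
  rw [norm_mul]
  exact mul_le_mul (h2 y) (h4 y) (norm_nonneg _) ((norm_nonneg _).trans (h2 y))

theorem BM.conj {f : X → ℂ} (hf : BM f) : BM (fun y => conj (f y)) := by
  obtain ⟨h1, C, h2⟩ := hf
  refine ⟨Complex.continuous_conj.measurable.comp h1, C, fun y => ?_⟩
  rw [RCLike.norm_conj]; exact h2 y

theorem BM.const (c : ℂ) : BM (fun _ : X => c) := ⟨measurable_const, ‖c‖, fun _ => le_rfl⟩

theorem BM.sub {f g : X → ℂ} (hf : BM f) (hg : BM g) : BM (fun y => f y - g y) := by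
  obtain ⟨h1, C, h2⟩ := hf
  obtain ⟨h3, D, h4⟩ := hg
  exact ⟨h1.sub h3, C + D, fun y => (norm_sub_le _ _).trans (add_le_add (h2 y) (h4 y))⟩

theorem BM.integrable {μ : Measure X} [IsProbabilityMeasure μ] {f : X → ℂ} (hf : BM f) :
    Integrable f μ := by
  obtain ⟨h1, C, h2⟩ := hf
  exact integrable_bddC h1 h2

theorem BM.sum {ι : Type*} (s : Finset ι) {f : ι → X → ℂ} (hf : ∀ i ∈ s, BM (f i)) :
    BM (fun y => ∑ i ∈ s, f i y) := by
  classical
  induction s using Finset.induction_on with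
  | empty => simpa using BM.const (X := X) 0
  | insert a s ha ih =>
    have h1 := hf a (Finset.mem_insert_self a s)
    have h2 := ih fun i hi => hf i (Finset.mem_insert_of_mem hi)
    obtain ⟨h3, C, h4⟩ := h1
    obtain ⟨h5, D, h6⟩ := h2
    refine ⟨?_, C + D, fun y => ?_⟩
    · simp_rw [Finset.sum_insert ha]; exact h3.add h5
    · show ‖∑ i ∈ insert a s, f i y‖ ≤ C + D
      rw [Finset.sum_insert ha]
      exact (norm_add_le _ _).trans (add_le_add (h4 y) (h6 y))

theorem BM.prod {ι : Type*} (s : Finset ι) {f : ι → X → ℂ} (hf : ∀ i ∈ s, BM (f i)) :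
    BM (fun y => ∏ i ∈ s, f i y) := by
  classical
  induction s using Finset.induction_on with
  | empty => simpa using BM.const (X := X) 1
  | insert a s ha ih =>
    simp_rw [Finset.prod_insert ha]
    exact (hf a (Finset.mem_insert_self a s)).mul
      (ih fun i hi => hf i (Finset.mem_insert_of_mem hi))

namespace Static

variable {A : Type*} [AddCommGroup A] {ω : Measure G} [IsProbabilityMeasure ω] {T : X ≃ᵐ X}
  {x : G → X} (S : Static ω T x A)

include S

theorem bm (u : A) : BM (S.e u) := ⟨S.meas u, 1, fun g => (S.norm u g).le⟩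

theorem ne_zero (u : A) (g : G) : S.e u g ≠ 0 := by
  intro h
  have := S.norm u g
  rw [h, norm_zero] at this
  exact zero_ne_one this

theorem mul_conj (u : A) (g : G) : S.e u g * conj (S.e u g) = 1 := by
  rw [Complex.mul_conj, Complex.normSq_eq_norm_sq, S.norm]; norm_num

theorem e_zero : ∃ c : ℂ, ‖c‖ = 1 ∧ ∀ᵐ g ∂ω, S.e 0 g = c := by
  obtain ⟨c, hc, h⟩ := S.add 0 0
  refine ⟨c⁻¹, by rw [norm_inv, hc, inv_one], ?_⟩
  filter_upwards [h] with g hg
  rw [add_zero] at hg
  have h0 := S.ne_zero 0 g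
  have hc0 : c ≠ 0 := by intro h; rw [h, norm_zero] at hc; exact zero_ne_one hc
  have : S.e 0 g * 1 = S.e 0 g * (c * S.e 0 g) := by
    rw [mul_one]; nth_rewrite 1 [hg]; ring
  have := mul_left_cancel₀ h0 this
  field_simp
  rw [mul_comm]; exact this.symm

theorem e_sum {ι : Type*} (s : Finset ι) (v : ι → A) :
    ∃ c : ℂ, ‖c‖ = 1 ∧ ∀ᵐ g ∂ω, S.e (∑ i ∈ s, v i) g = c * ∏ i ∈ s, S.e (v i) g := by
  classical
  induction s using Finset.induction_on with
  | empty =>
    obtain ⟨c, hc, h⟩ := S.e_zero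
    exact ⟨c, hc, by simpa using h⟩
  | insert a s ha ih =>
    obtain ⟨c, hc, h⟩ := ih
    obtain ⟨d, hd, h'⟩ := S.add (v a) (∑ i ∈ s, v i)
    refine ⟨d * c, by rw [norm_mul, hd, hc, one_mul], ?_⟩
    filter_upwards [h, h'] with g h1 h2
    rw [Finset.sum_insert ha, Finset.prod_insert ha, h2, h1]
    ring

theorem e_sub (u v : A) :
    ∃ c : ℂ, ‖c‖ = 1 ∧ ∀ᵐ g ∂ω, S.e (u - v) g = c * (S.e u g * conj (S.e v g)) := by
  obtain ⟨c, hc, h⟩ := S.add (u - v) v
  have hc0 : c ≠ 0 := by intro h; rw [h, norm_zero] at hc; exact zero_ne_one hc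
  refine ⟨c⁻¹, by rw [norm_inv, hc, inv_one], ?_⟩
  filter_upwards [h] with g hg
  rw [sub_add_cancel] at hg
  rw [hg]
  have := S.mul_conj v g
  calc S.e (u - v) g = (c⁻¹ * c) * S.e (u - v) g * (S.e v g * conj (S.e v g)) := by
        rw [this, inv_mul_cancel₀ hc0]; ring
    _ = _ := by ring

theorem orth' (u v : A) (h : u ≠ v) : ∫ g, S.e u g * conj (S.e v g) ∂ω = 0 := by
  obtain ⟨c, hc, hh⟩ := S.e_sub u v
  have hc0 : c ≠ 0 := by intro h; rw [h, norm_zero] at hc; exact zero_ne_one hc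
  have h1 := S.orth (u - v) (sub_ne_zero.2 h)
  rw [integral_congr_ae hh, integral_const_mul] at h1
  exact (mul_eq_zero.1 h1).resolve_left hc0

/-- the Bessel identity -/
theorem bessel (F : G → ℂ) (hF : BM F) (s : Finset A) (a : A → ℂ)
    (ha : ∀ u ∈ s, a u = ∫ g, F g * conj (S.e u g) ∂ω) :
    ∫ g, ‖F g - ∑ u ∈ s, a u * S.e u g‖ ^ 2 ∂ω = ∫ g, ‖F g‖ ^ 2 ∂ω - ∑ u ∈ s, ‖a u‖ ^ 2 := by
  classical
  have hP : BM (fun g => ∑ u ∈ s, a u * S.e u g) :=
    BM.sum s fun u _ => (BM.const _).mul (S.bm u)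
  -- complex version
  have hc : ∀ z : ℂ, ((‖z‖ ^ 2 : ℝ) : ℂ) = z * conj z := by
    intro z; rw [Complex.mul_conj, Complex.normSq_eq_norm_sq]
  have hFP : ∫ g, F g * conj (∑ u ∈ s, a u * S.e u g) ∂ω = ((∑ u ∈ s, ‖a u‖ ^ 2 : ℝ) : ℂ) := by
    have : (fun g => F g * conj (∑ u ∈ s, a u * S.e u g)) =
        fun g => ∑ u ∈ s, conj (a u) * (F g * conj (S.e u g)) := by
      funext g
      rw [map_sum, Finset.mul_sum]
      refine Finset.sum_congr rfl fun u _ => ?_
      rw [map_mul]; ring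
    rw [this, integral_finsetSum]
    · push_cast
      refine Finset.sum_congr rfl fun u hu => ?_
      rw [integral_const_mul, ← ha u hu, mul_comm]
      have := hc (a u)
      push_cast at this
      exact this.symm
    · intro u _
      exact ((BM.const _).mul (hF.mul (S.bm u).conj)).integrable
  have hPP : ∫ g, (∑ u ∈ s, a u * S.e u g) * conj (∑ u ∈ s, a u * S.e u g) ∂ω =
      ((∑ u ∈ s, ‖a u‖ ^ 2 : ℝ) : ℂ) := by
    have : (fun g => (∑ u ∈ s, a u * S.e u g) * conj (∑ u ∈ s, a u * S.e u g)) =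
        fun g => ∑ u ∈ s, ∑ v ∈ s, (a u * conj (a v)) * (S.e u g * conj (S.e v g)) := by
      funext g
      rw [map_sum, Finset.sum_mul_sum]
      refine Finset.sum_congr rfl fun u _ => Finset.sum_congr rfl fun v _ => ?_
      rw [map_mul]; ring
    rw [this, integral_finsetSum]
    · push_cast
      refine Finset.sum_congr rfl fun u hu => ?_
      rw [integral_finsetSum]
      · rw [Finset.sum_eq_single u]
        · rw [integral_const_mul]
          have h1 : (fun g => S.e u g * conj (S.e u g)) = fun _ => (1 : ℂ) := by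
            funext g; exact S.mul_conj u g
          rw [h1]
          simp only [integral_const, probReal_univ, one_smul, mul_one]
          have := hc (a u)
          push_cast at this
          exact this.symm
        · intro v _ hv
          rw [integral_const_mul, S.orth' u v (Ne.symm hv), mul_zero]
        · intro h; exact absurd hu h
      · intro v _
        exact ((BM.const _).mul ((S.bm u).mul (S.bm v).conj)).integrable
    · intro u _
      exact (BM.sum s fun v _ => (BM.const _).mul ((S.bm u).mul (S.bm v).conj)).integrable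
  have hPF : ∫ g, (∑ u ∈ s, a u * S.e u g) * conj (F g) ∂ω = ((∑ u ∈ s, ‖a u‖ ^ 2 : ℝ) : ℂ) := by
    have h1 : (fun g => (∑ u ∈ s, a u * S.e u g) * conj (F g)) =
        fun g => conj (F g * conj (∑ u ∈ s, a u * S.e u g)) := by
      funext g; rw [map_mul, Complex.conj_conj, mul_comm]
    rw [h1, integral_conj, hFP, Complex.conj_ofReal]
  have key : ((∫ g, ‖F g - ∑ u ∈ s, a u * S.e u g‖ ^ 2 ∂ω : ℝ) : ℂ) =
      ((∫ g, ‖F g‖ ^ 2 ∂ω - ∑ u ∈ s, ‖a u‖ ^ 2 : ℝ) : ℂ) := by
    rw [← integral_complex_ofReal]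
    have h1 : (fun g => ((‖F g - ∑ u ∈ s, a u * S.e u g‖ ^ 2 : ℝ) : ℂ)) =
        fun g => ((F g * conj (F g) - F g * conj (∑ u ∈ s, a u * S.e u g)) -
          (∑ u ∈ s, a u * S.e u g) * conj (F g)) +
          (∑ u ∈ s, a u * S.e u g) * conj (∑ u ∈ s, a u * S.e u g) := by
      funext g
      rw [hc, map_sub]; ring
    rw [h1, integral_add, integral_sub, integral_sub, hFP, hPP, hPF, Complex.ofReal_sub,
      ← integral_complex_ofReal]
    · have : (fun g => ((‖F g‖ ^ 2 : ℝ) : ℂ)) = fun g => F g * conj (F g) := by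
        funext g; exact hc _
      rw [this]; ring
    · exact (hF.mul hF.conj).integrable
    · exact (hF.mul hP.conj).integrable
    · exact ((hF.mul hF.conj).sub (hF.mul hP.conj)).integrable
    · exact (hP.mul hF.conj).integrable
    · exact (((hF.mul hF.conj).sub (hF.mul hP.conj)).sub (hP.mul hF.conj)).integrable
    · exact (hP.mul hP.conj).integrable
  exact_mod_cast key

variable {μ : Measure X} [IsProbabilityMeasure μ] (hT : MeasurePreserving T μ μ)
  (hx : MeasurePreserving x ω μ)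

omit S [IsProbabilityMeasure ω] in
include hx in
theorem int_x {E : Type*} [NormedAddCommGroup E] [NormedSpace ℝ E] (h : X → E)
    (hm : AEStronglyMeasurable h μ) : ∫ g, h (x g) ∂ω = ∫ y, h y ∂μ := by
  have h1 := hm
  rw [← hx.map_eq] at h1
  have h2 := integral_map hx.measurable.aemeasurable h1
  rw [hx.map_eq] at h2
  exact h2.symm

theorem coef_iter_nat (f : X → ℂ) (hf : BM f) (n : ℕ) (u : A) :
    ‖coef ω x S.e (fun y => f (iter T (n : ℤ) y)) ((S.β ^ (n : ℤ)) u)‖ = ‖coef ω x S.e f u‖ := by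
  induction n generalizing u with
  | zero => simp [iter_zero]
  | succ n ih =>
    have h1 := S.equiv (fun y => f (iter T (n : ℤ) y)) (hf.comp (measurable_iter T _))
      ((S.β ^ (n : ℤ)) u)
    rw [ih] at h1
    rw [← h1]
    have e1 : (fun y => f (iter T ((n + 1 : ℕ) : ℤ) y)) = fun y => f (iter T (n : ℤ) (T y)) := by
      funext y
      rw [show ((n + 1 : ℕ) : ℤ) = (n : ℤ) + 1 by push_cast; ring, iter_add, iter_one]
    have e2 : (S.β ^ ((n + 1 : ℕ) : ℤ)) u = S.β ((S.β ^ (n : ℤ)) u) := by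
      rw [show ((n + 1 : ℕ) : ℤ) = 1 + (n : ℤ) by push_cast; ring, zpow_add, zpow_one]
      rfl
    rw [e1, e2]

theorem coef_iter (f : X → ℂ) (hf : BM f) (m : ℤ) (u : A) :
    ‖coef ω x S.e (fun y => f (iter T m y)) ((S.β ^ m) u)‖ = ‖coef ω x S.e f u‖ := by
  rcases Int.eq_nat_or_neg m with ⟨n, rfl | rfl⟩
  · exact S.coef_iter_nat f hf n u
  · have h1 := S.coef_iter_nat (fun y => f (iter T (-(n : ℤ)) y))
      (hf.comp (measurable_iter T _)) n ((S.β ^ (-(n : ℤ))) u)
    rw [← h1]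
    congr 2
    · funext y
      rw [iter_neg_apply]
    · rw [← LinearEquiv.mul_apply, ← zpow_add]; simp

theorem coef_const (c : ℂ) (u : A) (hu : u ≠ 0) : coef ω x S.e (fun _ => c) u = 0 := by
  unfold coef
  rw [integral_const_mul, integral_conj, S.orth u hu, map_zero, mul_zero]

include hx in
theorem coef_zero (f : X → ℂ) (hf : BM f) : ‖coef ω x S.e f 0‖ = ‖∫ y, f y ∂μ‖ := by
  obtain ⟨c, hc, h⟩ := S.e_zero
  unfold coef
  have h1 : (fun g => f (x g) * conj (S.e 0 g)) =ᵐ[ω] fun g => conj c * f (x g) := by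
    filter_upwards [h] with g hg
    rw [hg, mul_comm]
  rw [integral_congr_ae h1, integral_const_mul, norm_mul, RCLike.norm_conj, hc, one_mul]
  rw [int_x hx f hf.1.aestronglyMeasurable]

include hT hx in
/-- uniform truncation -/
theorem trunc (f : X → ℂ) (hf : BM f) (hs : S.Spanned f) (ε : ℝ) (hε : 0 < ε) : ∃ s : Finset A, ∀ m : ℤ,
    ∫ g, ‖f (iter T m (x g)) - ∑ u ∈ s, coef ω x S.e (fun y => f (iter T m y)) ((S.β ^ m) u) *
      S.e ((S.β ^ m) u) g‖ ^ 2 ∂ω ≤ ε := by
  classical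
  obtain ⟨s, hs⟩ := hs ε hε
  refine ⟨s, fun m => ?_⟩
  have hinj : Function.Injective (S.β ^ m : A ≃ₗ[ℤ] A) := (S.β ^ m).injective
  have h1 := S.bessel (fun g => f (x g)) (hf.comp hx.measurable) s
    (fun u => coef ω x S.e f u) (fun u _ => rfl)
  have h2 := S.bessel (fun g => f (iter T m (x g)))
    (hf.comp ((measurable_iter T m).comp hx.measurable)) (s.image (S.β ^ m : A ≃ₗ[ℤ] A))
    (fun u => coef ω x S.e (fun y => f (iter T m y)) u) (fun u _ => rfl)
  rw [h1] at hs
  have h3 : ∀ g, ∑ u ∈ s, coef ω x S.e (fun y => f (iter T m y)) ((S.β ^ m) u) *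
      S.e ((S.β ^ m) u) g = ∑ u ∈ s.image (S.β ^ m : A ≃ₗ[ℤ] A),
        coef ω x S.e (fun y => f (iter T m y)) u * S.e u g := by
    intro g
    rw [Finset.sum_image fun a _ b _ h => hinj h]
  simp_rw [h3]
  rw [h2, Finset.sum_image fun a _ b _ h => hinj h]
  simp_rw [S.coef_iter f hf m]
  have h4 : ∫ g, ‖f (iter T m (x g))‖ ^ 2 ∂ω = ∫ g, ‖f (x g)‖ ^ 2 ∂ω := by
    have hm : Measurable fun y => ‖f y‖ ^ 2 := hf.1.norm.pow_const 2
    have e1 : ∫ g, ‖f (x g)‖ ^ 2 ∂ω = ∫ y, ‖f y‖ ^ 2 ∂μ :=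
      int_x hx (fun y => ‖f y‖ ^ 2) hm.aestronglyMeasurable
    have e2 : ∫ g, ‖f (iter T m (x g))‖ ^ 2 ∂ω = ∫ y, ‖f (iter T m y)‖ ^ 2 ∂μ :=
      int_x hx (fun y => ‖f (iter T m y)‖ ^ 2) (hm.comp (measurable_iter T m)).aestronglyMeasurable
    rw [e1, e2, integral_comp_iter hT m (fun y => ‖f y‖ ^ 2) hm.aestronglyMeasurable]
  rw [h4]
  exact hs

end Static

end Vale.Agent.P102.SF
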