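import Vale.Agent.P102.Bdl.B1

/-! Elimination: a vanishing sum `∑ i, β ^ (t n i) (v i) = 0` for all `n`, with gaps tending to
infinity, forces every `v i` to be quasi-unipotent for `β`. -/

namespace Vale.Agent.P102.SF

open Vale.Agent.P102.Ext

variable {A : Type*} [AddCommGroup A]

/-- the powers of an automorphism, as a monoid homomorphism to the endomorphism ring -/
noncomputable def powHom (β : A ≃ₗ[ℤ] A) : Multiplicative ℤ →* Module.End ℤ A where
  toFun m := ((β ^ (Multiplicative.toAdd m) : A ≃ₗ[ℤ] A) : A →ₗ[ℤ] A)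
  map_one' := by
    apply LinearMap.ext; intro w
    simp
  map_mul' a b := by
    apply LinearMap.ext; intro w
    simp [zpow_add]

/-- the action of Laurent polynomials -/
noncomputable def rhoA (β : A ≃ₗ[ℤ] A) : LaurentPolynomial ℤ →ₐ[ℤ] Module.End ℤ A :=
  AddMonoidAlgebra.lift _ _ _ (powHom β)

theorem rhoA_T (β : A ≃ₗ[ℤ] A) (m : ℤ) (a : A) :
    rhoA β (LaurentPolynomial.T m) a = (β ^ m) a := by
  unfold rhoA LaurentPolynomial.T
  rw [AddMonoidAlgebra.lift_single, one_smul]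
  rfl

theorem rhoA_mul (β : A ≃ₗ[ℤ] A) (p q : LaurentPolynomial ℤ) (a : A) :
    rhoA β (p * q) a = rhoA β p (rhoA β q a) := by
  rw [map_mul, Module.End.mul_apply]

/-- quasi-unipotent elements -/
def QU (β : A ≃ₗ[ℤ] A) (a : A) : Prop :=
  ∃ N M : ℕ, 0 < N ∧ rhoA β ((LaurentPolynomial.T (N : ℤ) - 1) ^ M) a = 0

theorem T_sub_one_dvd (N m : ℕ) :
    (LaurentPolynomial.T (N : ℤ) - 1 : LaurentPolynomial ℤ) ∣
      (LaurentPolynomial.T ((N * m : ℕ) : ℤ) - 1) := by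
  have h : (LaurentPolynomial.T ((N * m : ℕ) : ℤ) : LaurentPolynomial ℤ) =
      (LaurentPolynomial.T (N : ℤ)) ^ m := by
    rw [LaurentPolynomial.T_pow]; congr 1; push_cast; ring
  rw [h]
  exact sub_one_dvd_pow_sub_one _ _

theorem rhoA_zero_of_dvd (β : A ≃ₗ[ℤ] A) {p q : LaurentPolynomial ℤ} (h : p ∣ q) {a : A}
    (hp : rhoA β p a = 0) : rhoA β q a = 0 := by
  obtain ⟨r, rfl⟩ := h
  rw [mul_comm, rhoA_mul, hp, map_zero]

theorem QU.zero (β : A ≃ₗ[ℤ] A) : QU β 0 := ⟨1, 0, one_pos, map_zero _⟩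

theorem QU.add {β : A ≃ₗ[ℤ] A} {a b : A} (ha : QU β a) (hb : QU β b) : QU β (a + b) := by
  obtain ⟨N, M, hN, h⟩ := ha
  obtain ⟨N', M', hN', h'⟩ := hb
  refine ⟨N * N', M + M', Nat.mul_pos hN hN', ?_⟩
  rw [map_add]
  have h1 : rhoA β ((LaurentPolynomial.T ((N * N' : ℕ) : ℤ) - 1) ^ (M + M')) a = 0 := by
    apply rhoA_zero_of_dvd β _ h
    exact (pow_dvd_pow_of_dvd (T_sub_one_dvd N N') M).trans (pow_dvd_pow _ (Nat.le_add_right _ _))
  have h2 : rhoA β ((LaurentPolynomial.T ((N * N' : ℕ) : ℤ) - 1) ^ (M + M')) b = 0 := by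
    apply rhoA_zero_of_dvd β _ h'
    refine (pow_dvd_pow_of_dvd ?_ M').trans (pow_dvd_pow _ (Nat.le_add_left _ _))
    rw [mul_comm]; exact T_sub_one_dvd N' N
  rw [h1, h2, add_zero]

theorem QU.rho {β : A ≃ₗ[ℤ] A} {a : A} (ha : QU β a) (p : LaurentPolynomial ℤ) :
    QU β (rhoA β p a) := by
  obtain ⟨N, M, hN, h⟩ := ha
  refine ⟨N, M, hN, ?_⟩
  rw [← rhoA_mul, mul_comm, rhoA_mul, h, map_zero]

/-- the ideal of Laurent polynomials mapping `a` to a quasi-unipotent element -/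
noncomputable def quIdeal (β : A ≃ₗ[ℤ] A) (a : A) : Ideal (LaurentPolynomial ℤ) where
  carrier := {p | QU β (rhoA β p a)}
  add_mem' := by
    intro p q hp hq
    simp only [Set.mem_ofPred_eq] at *
    rw [map_add, LinearMap.add_apply]
    exact hp.add hq
  zero_mem' := by
    simp only [Set.mem_ofPred_eq, map_zero, LinearMap.zero_apply]
    exact QU.zero β
  smul_mem' := by
    intro p q hq
    simp only [Set.mem_ofPred_eq, smul_eq_mul] at *
    rw [rhoA_mul]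
    exact hq.rho p

theorem mem_quIdeal {β : A ≃ₗ[ℤ] A} {a : A} {p : LaurentPolynomial ℤ} :
    p ∈ quIdeal β a ↔ QU β (rhoA β p a) := Iff.rfl

theorem quIdeal_sat (β : A ≃ₗ[ℤ] A) (a : A) (m : ℕ) (hm : 0 < m) (p : LaurentPolynomial ℤ)
    (h : (LaurentPolynomial.T (m : ℤ) - 1) * p ∈ quIdeal β a) : p ∈ quIdeal β a := by
  rw [mem_quIdeal] at *
  obtain ⟨N, M, hN, h⟩ := h
  refine ⟨N * m, M + 1, Nat.mul_pos hN hm, ?_⟩
  rw [rhoA_mul, ← rhoA_mul] at h
  refine rhoA_zero_of_dvd β ?_ h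
  rw [pow_succ]
  refine mul_dvd_mul (pow_dvd_pow_of_dvd (T_sub_one_dvd N m) M) ?_
  rw [mul_comm]; exact T_sub_one_dvd m N

theorem rhoA_det {k : ℕ} (β : A ≃ₗ[ℤ] A) (Mx : Matrix (Fin k) (Fin k) (LaurentPolynomial ℤ))
    (v : Fin k → A) (h : ∀ c, ∑ r, rhoA β (Mx r c) (v r) = 0) (i : Fin k) :
    rhoA β Mx.det (v i) = 0 := by
  have h1 : rhoA β Mx.det (v i) = ∑ r, rhoA β ((Mx * Mx.adjugate) r i) (v r) := by
    rw [Matrix.mul_adjugate]
    rw [Finset.sum_eq_single i]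
    · simp
    · intro b _ hb
      simp [Matrix.one_apply_ne hb]
    · intro hi; exact absurd (Finset.mem_univ i) hi
  rw [h1]
  have h2 : ∀ r, rhoA β ((Mx * Mx.adjugate) r i) (v r) =
      ∑ c, rhoA β (Mx.adjugate c i) (rhoA β (Mx r c) (v r)) := by
    intro r
    rw [Matrix.mul_apply, map_sum, LinearMap.sum_apply]
    refine Finset.sum_congr rfl fun c _ => ?_
    rw [mul_comm, rhoA_mul]
  simp_rw [h2]
  rw [Finset.sum_comm]
  refine Finset.sum_eq_zero fun c _ => ?_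
  rw [← map_sum, h c, map_zero]

/-- Elimination. -/
theorem elim {k : ℕ} (t : ℕ → Fin k → ℤ) (ht : Gaps t) (β : A ≃ₗ[ℤ] A) (v : Fin k → A)
    (h : ∀ n, ∑ i, (β ^ (t n i)) (v i) = 0) (i : Fin k) : QU β (v i) := by
  have h1 : (1 : LaurentPolynomial ℤ) ∈ quIdeal β (v i) := by
    refine algebra_main t ht _ 0 ?_ ?_
    · intro n _
      rw [mem_quIdeal]
      have : rhoA β (monMat t n).det (v i) = 0 := by
        apply rhoA_det
        intro c
        simp only [monMat, Matrix.of_apply, rhoA_T]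
        exact h (n c)
      rw [this]
      exact QU.zero β
    · intro m hm p hp
      exact quIdeal_sat β (v i) m hm p hp
  rw [mem_quIdeal, map_one, Module.End.one_apply] at h1
  exact h1

end Vale.Agent.P102.SF
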