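import Vale.Agent.P102.SF.Static

set_option linter.unusedSectionVars false

namespace Vale.Agent.P102.SF

open MeasureTheory Filter Topology Vale.Agent.P102.Ext
open scoped ComplexConjugate

variable {X G : Type*} [MeasurableSpace X] [MeasurableSpace G]

/-- decay of correlations of a mixing transformation, for one bounded function of mean zero -/
theorem mix_self {μ : Measure X} [IsProbabilityMeasure μ] {T : X ≃ᵐ X}
    (hT : MeasurePreserving T μ μ) (hmix : Ext.MixingOfOrder μ T 2) (g : X → ℂ) (hg : BM g)
    (h0 : ∫ y, g y ∂μ = 0) (ε : ℝ) (hε : 0 < ε) :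
    ∃ N : ℕ, ∀ a : ℕ, N ≤ a → ‖∫ y, g (iter T (a : ℤ) y) * conj (g y) ∂μ‖ ≤ ε := by
  have h1 := hmix.unif hT ![fun y => conj (g y), g]
    (by
      intro i; fin_cases i
      · exact hg.conj.1
      · exact hg.1)
    (by
      intro i; fin_cases i
      · exact hg.conj.2
      · exact hg.2)
  rw [Metric.tendsto_nhds] at h1
  have h2 := eventually_gapF.1 (h1 ε hε)
  obtain ⟨N, hN⟩ := h2
  refine ⟨N.toNat, fun a ha => ?_⟩
  have h3 := hN ![0, (a : ℤ)] (by
    intro i j hij
    fin_cases i <;> fin_cases j <;> simp at hij ⊢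
    omega)
  simp only [Fin.prod_univ_two, Matrix.cons_val_zero, Matrix.cons_val_one, h0, mul_zero,
    dist_zero_right, iter_zero] at h3
  have h4 : (fun y => g (iter T (a : ℤ) y) * conj (g y)) =
      fun y => conj (g y) * g (iter T (a : ℤ) y) := by funext y; rw [mul_comm]
  rw [h4]
  exact h3.le

namespace Static

variable {A : Type*} [AddCommGroup A] {ω : Measure G} [IsProbabilityMeasure ω] {T : X ≃ᵐ X}
  {x : G → X} (S : Static ω T x A)
  {μ : Measure X} [IsProbabilityMeasure μ] (hT : MeasurePreserving T μ μ)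
  (hx : MeasurePreserving x ω μ)

theorem rho_T_sub_one_pow (β : A ≃ₗ[ℤ] A) (N : ℕ) (a : A) :
    rhoA β (LaurentPolynomial.T (N : ℤ) - 1) a = (β ^ (N : ℤ)) a - a := by
  rw [map_sub, map_one, LinearMap.sub_apply, rhoA_T, Module.End.one_apply]

theorem rhoA_zpow_comm (β : A ≃ₗ[ℤ] A) (p : LaurentPolynomial ℤ) (m : ℤ) (a : A) :
    rhoA β p ((β ^ m) a) = (β ^ m) (rhoA β p a) := by
  rw [← rhoA_T, ← rhoA_mul, mul_comm, rhoA_mul, rhoA_T]

include hT hx in
/-- quasi-unipotent characters are orthogonal to the functions of `X` -/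
theorem coef_eq_zero_of_pow (hmix : Ext.MixingOfOrder μ T 2) (N : ℕ) (hN : 0 < N) (M : ℕ) :
    ∀ v : A, v ≠ 0 → rhoA S.β ((LaurentPolynomial.T (N : ℤ) - 1) ^ M) v = 0 →
      ∀ g : X → ℂ, BM g → coef ω x S.e g v = 0 := by
  induction M with
  | zero =>
    intro v hv h g _
    rw [pow_zero, map_one, Module.End.one_apply] at h
    exact absurd h hv
  | succ M ih =>
    intro v hv hpow g₀ hg₀
    by_contra hne
    -- mean zero
    set g : X → ℂ := fun y => g₀ y - ∫ z, g₀ z ∂μ with hgdef
    have hg : BM g := hg₀.sub (BM.const _)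
    have hgc : coef ω x S.e g v = coef ω x S.e g₀ v := by
      have h1 := S.coef_const (∫ z, g₀ z ∂μ) v hv
      have h2 : coef ω x S.e g v = coef ω x S.e g₀ v - coef ω x S.e (fun _ => ∫ z, g₀ z ∂μ) v := by
        unfold coef
        rw [← integral_sub]
        · congr 1; funext w; simp only [hgdef]; ring
        · exact ((hg₀.comp hx.measurable).mul (S.bm v).conj).integrable
        · exact ((BM.const _).mul (S.bm v).conj).integrable
      rw [h2, h1, sub_zero]
    have hg0 : ∫ y, g y ∂μ = 0 := by
      rw [hgdef, integral_sub hg₀.integrable (integrable_const _)]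
      simp
    rw [← hgc] at hne
    set a : ℝ := ‖coef ω x S.e g v‖ with ha
    have hapos : 0 < a := norm_pos_iff.2 hne
    obtain ⟨hgm, C, hC⟩ := hg
    have hC0 : 0 ≤ C := by
      have : Nonempty X := by
        by_contra hem
        rw [not_nonempty_iff] at hem
        have := IsProbabilityMeasure.measure_univ (μ := μ)
        rw [Set.univ_eq_empty_iff.2 hem, measure_empty] at this
        exact zero_ne_one this
      exact (norm_nonneg _).trans (hC (Classical.arbitrary X))
    have hg : BM g := ⟨hgm, C, hC⟩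
    -- choose the step
    set ε : ℝ := a ^ 2 / 4 with hε
    have hεpos : 0 < ε := by positivity
    obtain ⟨H, hH⟩ := mix_self hT hmix g hg hg0 ε hεpos
    set L : ℕ := N * (H + 1) with hL
    have hLH : H ≤ L := by
      rw [hL]; nlinarith
    have hLpos : 0 < L := Nat.mul_pos hN (Nat.succ_pos _)
    -- the vectors
    let z : ℕ → ℂ := fun j => coef ω x S.e (fun y => g (iter T ((L * j : ℕ) : ℤ) y))
      ((S.β ^ ((L * j : ℕ) : ℤ)) v)
    have hz : ∀ j, ‖z j‖ = a := fun j => S.coef_iter g hg _ v
    let c : ℕ → ℂ := fun j => conj (z j) / a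
    have hc : ∀ j, ‖c j‖ = 1 := by
      intro j
      simp only [c]
      rw [norm_div, RCLike.norm_conj, hz, Complex.norm_real, Real.norm_of_nonneg hapos.le,
        div_self hapos.ne']
    have hcz : ∀ j, c j * z j = a := by
      intro j
      simp only [c]
      have : conj (z j) * z j = ((a ^ 2 : ℝ) : ℂ) := by
        rw [mul_comm, Complex.mul_conj, Complex.normSq_eq_norm_sq, hz]
      rw [div_mul_eq_mul_div, this]
      have ha0 : (a : ℂ) ≠ 0 := by exact_mod_cast hapos.ne'
      field_simp
      push_cast; ring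
    let V : ℕ → G → ℂ := fun j w => c j * (S.e v w * (conj (S.e ((S.β ^ ((L * j : ℕ) : ℤ)) v) w) *
      g (iter T ((L * j : ℕ) : ℤ) (x w))))
    have hV : ∀ j, BM (V j) := fun j => (BM.const _).mul ((S.bm v).mul ((S.bm _).conj.mul
      (hg.comp ((measurable_iter T _).comp hx.measurable))))
    have hVn : ∀ j w, ‖V j w‖ ≤ C := by
      intro j w
      simp only [V]
      rw [norm_mul, norm_mul, norm_mul, hc, S.norm, RCLike.norm_conj, S.norm, one_mul, one_mul,
        one_mul]
      exact hC _
    have hVe : ∀ j, ∫ w, conj (S.e v w) * V j w ∂ω = a := by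
      intro j
      have h1 : (fun w => conj (S.e v w) * V j w) = fun w => c j *
          (g (iter T ((L * j : ℕ) : ℤ) (x w)) * conj (S.e ((S.β ^ ((L * j : ℕ) : ℤ)) v) w)) := by
        funext w
        simp only [V]
        have := S.mul_conj v w
        calc _ = (S.e v w * conj (S.e v w)) * (c j * (conj (S.e ((S.β ^ ((L * j : ℕ) : ℤ)) v) w) *
              g (iter T ((L * j : ℕ) : ℤ) (x w)))) := by ring
          _ = _ := by rw [this]; ring
      rw [h1, integral_const_mul]
      exact hcz j
    -- off-diagonal inner products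
    have hoff : ∀ i j : ℕ, i < j → ‖∫ w, V j w * conj (V i w) ∂ω‖ ≤ ε := by
      intro i j hij
      obtain ⟨h, hh, rfl⟩ : ∃ h, 0 < h ∧ j = i + h := ⟨j - i, by omega, by omega⟩
      set δ : A := (S.β ^ ((L * h : ℕ) : ℤ)) v - v with hδ
      set m : ℤ := ((L * i : ℕ) : ℤ) with hm
      have hsum : ((L * (i + h) : ℕ) : ℤ) = m + ((L * h : ℕ) : ℤ) := by rw [hm]; push_cast; ring
      set GG : X → ℂ := fun y => g (iter T ((L * h : ℕ) : ℤ) y) * conj (g y) with hGG
      have hGGb : BM GG := (hg.comp (measurable_iter T _)).mul hg.conj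
      obtain ⟨d, hd, hde⟩ := S.e_sub ((S.β ^ ((L * (i + h) : ℕ) : ℤ)) v) ((S.β ^ m) v)
      have hdd : (S.β ^ ((L * (i + h) : ℕ) : ℤ)) v - (S.β ^ m) v = (S.β ^ m) δ := by
        rw [hδ, map_sub, hsum, zpow_add]; rfl
      rw [hdd] at hde
      have h1 : (fun w => V (i + h) w * conj (V i w)) =ᵐ[ω] fun w =>
          (c (i + h) * conj (c i) * d) *
            (GG (iter T m (x w)) * conj (S.e ((S.β ^ m) δ) w)) := by
        filter_upwards [hde] with w hw
        rw [hw]
        have e1 := S.mul_conj v w
        have hd1 : d * conj d = 1 := by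
          rw [Complex.mul_conj, Complex.normSq_eq_norm_sq, hd]; norm_num
        simp only [V, hGG, map_mul, Complex.conj_conj]
        have e3 : iter T ((L * (i + h) : ℕ) : ℤ) (x w) =
            iter T ((L * h : ℕ) : ℤ) (iter T m (x w)) := by
          rw [hsum, add_comm, iter_add]
        rw [e3]
        rw [show ((L * i : ℕ) : ℤ) = m from rfl]
        calc _ = (S.e v w * conj (S.e v w)) * (c (i + h) * conj (c i) *
              (g (iter T ((L * h : ℕ) : ℤ) (iter T m (x w))) * conj (g (iter T m (x w))) *
              (conj (S.e ((S.β ^ ((L * (i + h) : ℕ) : ℤ)) v) w) * S.e ((S.β ^ m) v) w))) := by ring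
          _ = (d * conj d) * (c (i + h) * conj (c i) *
              (g (iter T ((L * h : ℕ) : ℤ) (iter T m (x w))) * conj (g (iter T m (x w))) *
              (conj (S.e ((S.β ^ ((L * (i + h) : ℕ) : ℤ)) v) w) * S.e ((S.β ^ m) v) w))) := by
                rw [e1, hd1]
          _ = _ := by ring
      rw [integral_congr_ae h1, integral_const_mul, norm_mul, norm_mul, norm_mul, hc,
        RCLike.norm_conj, hc, hd, one_mul, one_mul, one_mul]
      have h2 : ‖∫ w, GG (iter T m (x w)) * conj (S.e ((S.β ^ m) δ) w) ∂ω‖ =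
          ‖coef ω x S.e GG δ‖ := S.coef_iter GG hGGb m δ
      rw [h2]
      by_cases hδ0 : δ = 0
      · rw [hδ0, S.coef_zero hx GG hGGb]
        apply hH
        nlinarith
      · have h3 : coef ω x S.e GG δ = 0 := by
          apply ih δ hδ0 _ GG hGGb
          have hdvd := T_sub_one_dvd N ((H + 1) * h)
          have e4 : N * ((H + 1) * h) = L * h := by rw [hL]; ring
          rw [e4] at hdvd
          have e5 : δ = rhoA S.β (LaurentPolynomial.T ((L * h : ℕ) : ℤ) - 1) v := by
            rw [rho_T_sub_one_pow]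
          rw [e5, ← rhoA_mul]
          refine rhoA_zero_of_dvd S.β ?_ hpow
          rw [pow_succ]
          exact mul_dvd_mul_left _ hdvd
        rw [h3, norm_zero]
        exact hεpos.le
    have hoff' : ∀ i j : ℕ, i ≠ j → ‖∫ w, V j w * conj (V i w) ∂ω‖ ≤ ε := by
      intro i j hij
      rcases lt_or_gt_of_ne hij with h1 | h1
      · exact hoff i j h1
      · have h2 := hoff j i h1
        have h3 : ∫ w, V j w * conj (V i w) ∂ω = conj (∫ w, V i w * conj (V j w) ∂ω) := by
          rw [← integral_conj]
          congr 1; funext w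
          rw [map_mul (starRingEnd ℂ) (V i w) _, Complex.conj_conj, mul_comm]
        rw [h3, RCLike.norm_conj]; exact h2
    -- the inequality
    have key : ∀ K : ℕ, (K * a) ^ 2 ≤ K * C ^ 2 + K ^ 2 * ε := by
      intro K
      set F : G → ℂ := fun w => ∑ j ∈ Finset.range K, V j w with hF
      have hFb : BM F := BM.sum _ fun j _ => hV j
      have h1 : ∫ w, conj (S.e v w) * F w ∂ω = (K * a : ℝ) := by
        have : (fun w => conj (S.e v w) * F w) =
            fun w => ∑ j ∈ Finset.range K, conj (S.e v w) * V j w := by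
          funext w; rw [hF, Finset.mul_sum]
        rw [this, integral_finsetSum]
        · simp_rw [hVe]
          simp
        · intro j _
          exact ((S.bm v).conj.mul (hV j)).integrable
      have h2 : K * a ≤ ∫ w, ‖F w‖ ∂ω := by
        have h3 : ‖((K * a : ℝ) : ℂ)‖ ≤ ∫ w, ‖conj (S.e v w) * F w‖ ∂ω := by
          rw [← h1]; exact norm_integral_le_integral_norm _
        rw [Complex.norm_real, Real.norm_of_nonneg (by positivity)] at h3
        refine h3.trans (le_of_eq ?_)
        congr 1; funext w
        rw [norm_mul, RCLike.norm_conj, S.norm, one_mul]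
      obtain ⟨hFm, D, hD⟩ := hFb
      have h4 := sq_integral_norm_le (μ := ω) F hFm hD
      have h5 : (K * a) ^ 2 ≤ (∫ w, ‖F w‖ ∂ω) ^ 2 := by
        apply pow_le_pow_left₀ (by positivity) h2
      have h6 : ∫ w, ‖F w‖ ^ 2 ∂ω ≤ K * C ^ 2 + K ^ 2 * ε := by
        have e1 : ((∫ w, ‖F w‖ ^ 2 ∂ω : ℝ) : ℂ) = ∑ j ∈ Finset.range K, ∑ i ∈ Finset.range K,
            ∫ w, V j w * conj (V i w) ∂ω := by
          rw [← integral_complex_ofReal]
          have : (fun w => ((‖F w‖ ^ 2 : ℝ) : ℂ)) =
              fun w => ∑ j ∈ Finset.range K, ∑ i ∈ Finset.range K, V j w * conj (V i w) := by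
            funext w
            have h7 : ((‖F w‖ ^ 2 : ℝ) : ℂ) = F w * conj (F w) := by
              rw [Complex.mul_conj, Complex.normSq_eq_norm_sq]
            rw [h7, hF, map_sum, Finset.sum_mul_sum]
          rw [this, integral_finsetSum]
          · refine Finset.sum_congr rfl fun j _ => ?_
            rw [integral_finsetSum]
            intro i _
            exact ((hV j).mul (hV i).conj).integrable
          · intro j _
            exact (BM.sum _ fun i _ => (hV j).mul (hV i).conj).integrable
        have e2 : ∫ w, ‖F w‖ ^ 2 ∂ω ≤ ∑ j ∈ Finset.range K, ∑ i ∈ Finset.range K,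
            ‖∫ w, V j w * conj (V i w) ∂ω‖ := by
          have h8 : ‖((∫ w, ‖F w‖ ^ 2 ∂ω : ℝ) : ℂ)‖ = ∫ w, ‖F w‖ ^ 2 ∂ω := by
            rw [Complex.norm_real, Real.norm_of_nonneg]
            exact integral_nonneg fun w => by positivity
          rw [← h8, e1]
          refine (norm_sum_le _ _).trans (Finset.sum_le_sum fun j _ => norm_sum_le _ _)
        refine e2.trans ?_
        have e3 : ∀ j ∈ Finset.range K, ∑ i ∈ Finset.range K, ‖∫ w, V j w * conj (V i w) ∂ω‖ ≤
            C ^ 2 + K * ε := by
          intro j hj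
          have e4 : ∀ i ∈ Finset.range K, ‖∫ w, V j w * conj (V i w) ∂ω‖ ≤
              (if i = j then C ^ 2 else 0) + ε := by
            intro i _
            by_cases hij : i = j
            · rw [if_pos hij, hij]
              have e5 : ‖∫ w, V j w * conj (V j w) ∂ω‖ ≤ C * C := by
                refine (norm_integral_le_of_norm_le_const (C := C * C)
                  (Eventually.of_forall fun w => ?_)).trans ?_
                · rw [norm_mul, RCLike.norm_conj]
                  exact mul_le_mul (hVn j w) (hVn j w) (norm_nonneg _) hC0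
                · simp
              nlinarith
            · rw [if_neg hij, zero_add]
              exact hoff' i j hij
          refine (Finset.sum_le_sum e4).trans ?_
          rw [Finset.sum_add_distrib, Finset.sum_ite_eq' (Finset.range K) j, if_pos hj]
          simp
        refine (Finset.sum_le_sum e3).trans ?_
        simp only [Finset.sum_const, Finset.card_range, nsmul_eq_mul]
        exact le_of_eq (by ring)
      linarith
    obtain ⟨K, hK⟩ := exists_nat_gt (C ^ 2 / (a ^ 2 / 2))
    have hKpos : (0 : ℝ) < K := lt_of_le_of_lt (by positivity) hK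
    have h7 := key K
    rw [div_lt_iff₀ (by positivity)] at hK
    have h8 : (K : ℝ) * C ^ 2 < K * (K * (a ^ 2 / 2)) := by
      exact mul_lt_mul_of_pos_left hK hKpos
    rw [hε] at h7
    have h9 : (K : ℝ) ^ 2 * a ^ 2 > 0 := by positivity
    nlinarith

end Static

end Vale.Agent.P102.SF
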