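import Vale.Agent.P102.SF.Static3

set_option linter.unusedSectionVars false

namespace Vale.Agent.P102.SF

open MeasureTheory Filter Topology Vale.Agent.P102.Ext
open scoped ComplexConjugate

variable {X G : Type*} [MeasurableSpace X] [MeasurableSpace G]

namespace Static

variable {A : Type*} [AddCommGroup A] {ω : Measure G} [IsProbabilityMeasure ω] {T : X ≃ᵐ X}
  {x : G → X} (S : Static ω T x A)
  {μ : Measure X} [IsProbabilityMeasure μ] (hT : MeasurePreserving T μ μ)
  (hx : MeasurePreserving x ω μ)

include hx in
theorem spanned_mono (f : X → ℂ) (hf : BM f) (s s' : Finset A) (hss : s ⊆ s') :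
    ∫ g, ‖f (x g) - ∑ u ∈ s', coef ω x S.e f u * S.e u g‖ ^ 2 ∂ω ≤
      ∫ g, ‖f (x g) - ∑ u ∈ s, coef ω x S.e f u * S.e u g‖ ^ 2 ∂ω := by
  rw [S.bessel (fun g => f (x g)) (hf.comp hx.measurable) s
    (fun u => coef ω x S.e f u) (fun u _ => rfl)]
  rw [S.bessel (fun g => f (x g)) (hf.comp hx.measurable) s'
    (fun u => coef ω x S.e f u) (fun u _ => rfl)]
  have := Finset.sum_le_sum_of_subset_of_nonneg (f := fun u => ‖coef ω x S.e f u‖ ^ 2) hss
    (fun i _ _ => by positivity)
  linarith

include hx in
theorem spanned_sub_const (f : X → ℂ) (hf : BM f) (hs : S.Spanned f) (c : ℂ) :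
    S.Spanned (fun y => f y - c) := by
  classical
  intro ε hε
  obtain ⟨s, h⟩ := hs ε hε
  refine ⟨insert 0 s, ?_⟩
  obtain ⟨z, hz, hze⟩ := S.e_zero
  have hcoef : ∀ u, coef ω x S.e (fun y => f y - c) u =
      coef ω x S.e f u - coef ω x S.e (fun _ => c) u := by
    intro u
    unfold coef
    rw [← integral_sub]
    · congr 1; funext g; ring
    · exact ((hf.comp hx.measurable).mul (S.bm u).conj).integrable
    · exact ((BM.const _).mul (S.bm u).conj).integrable
  have hzz : conj z * z = 1 := by
    rw [mul_comm, Complex.mul_conj, Complex.normSq_eq_norm_sq, hz]; norm_num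
  have hc0 : coef ω x S.e (fun _ => c) 0 = c * conj z := by
    unfold coef
    have : (fun g => c * conj (S.e 0 g)) =ᵐ[ω] fun _ => c * conj z := by
      filter_upwards [hze] with g hg
      rw [hg]
    rw [integral_congr_ae this]
    simp
  have hsum : ∀ᵐ g ∂ω, f (x g) - c - ∑ u ∈ insert 0 s, coef ω x S.e (fun y => f y - c) u *
      S.e u g = f (x g) - ∑ u ∈ insert 0 s, coef ω x S.e f u * S.e u g := by
    filter_upwards [hze] with g hg
    have h1 : ∑ u ∈ insert 0 s, coef ω x S.e (fun y => f y - c) u * S.e u g =
        ∑ u ∈ insert 0 s, coef ω x S.e f u * S.e u g -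
        ∑ u ∈ insert 0 s, coef ω x S.e (fun _ => c) u * S.e u g := by
      rw [← Finset.sum_sub_distrib]
      refine Finset.sum_congr rfl fun u _ => ?_
      rw [hcoef]; ring
    have h2 : ∑ u ∈ insert 0 s, coef ω x S.e (fun _ => c) u * S.e u g = c := by
      rw [Finset.sum_eq_single (0 : A)]
      · rw [hc0, hg, mul_assoc, hzz, mul_one]
      · intro u _ hu
        rw [S.coef_const c u hu, zero_mul]
      · intro h; exact absurd (Finset.mem_insert_self _ _) h
    rw [h1, h2]; ring
  have h3 : ∫ g, ‖f (x g) - c - ∑ u ∈ insert 0 s, coef ω x S.e (fun y => f y - c) u *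
      S.e u g‖ ^ 2 ∂ω = ∫ g, ‖f (x g) - ∑ u ∈ insert 0 s, coef ω x S.e f u * S.e u g‖ ^ 2 ∂ω := by
    apply integral_congr_ae
    filter_upwards [hsum] with g hg
    rw [hg]
  rw [h3]
  exact (S.spanned_mono hx f hf s _ (Finset.subset_insert _ _)).trans h

include hx in
theorem spanned_const (c : ℂ) : S.Spanned (fun _ => c) := by
  have h0 : S.Spanned (fun _ => (0 : ℂ)) := by
    intro ε hε
    exact ⟨∅, by simpa using hε.le⟩
  have := S.spanned_sub_const hx (fun _ => (0 : ℂ)) (BM.const _) h0 (-c)
  simpa using this

include hT hx in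
/-- Correlations of all orders of functions in the span converge to the products of the
integrals. -/
theorem corr_tendsto (hmix : Ext.MixingOfOrder μ T 2) {k : ℕ} (t : ℕ → Fin k → ℤ)
    (ht : Gaps t) (f : Fin k → X → ℂ) (hf : ∀ i, BM (f i)) (hs : ∀ i, S.Spanned (f i)) :
    Tendsto (fun n => ∫ y, ∏ i, f i (iter T (t n i) y) ∂μ) atTop (𝓝 (∏ i, ∫ y, f i y ∂μ)) := by
  classical
  suffices H : ∀ s : Finset (Fin k), ∀ f : Fin k → X → ℂ, (∀ i, BM (f i)) →
      (∀ i, S.Spanned (f i)) → (∀ i, i ∉ s → ∃ c : ℂ, f i = fun _ => c) →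
      Tendsto (fun n => ∫ y, ∏ i, f i (iter T (t n i) y) ∂μ) atTop
        (𝓝 (∏ i, ∫ y, f i y ∂μ)) from
    H Finset.univ f hf hs (fun i hi => absurd (Finset.mem_univ i) hi)
  intro s
  induction s using Finset.induction_on with
  | empty =>
    intro f hf hs hc
    choose c hc using fun i => hc i (Finset.notMem_empty i)
    have h1 : (fun n => ∫ y, ∏ i, f i (iter T (t n i) y) ∂μ) = fun _ => ∏ i, ∫ y, f i y ∂μ := by
      funext n
      simp [hc]
    rw [h1]
    exact tendsto_const_nhds
  | insert a s ha ih =>
    intro f hf hs hc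
    -- replace `f a` by its integral
    set c : ℂ := ∫ y, f a y ∂μ with hcdef
    set f' : Fin k → X → ℂ := Function.update f a (fun _ => c) with hf'
    set f'' : Fin k → X → ℂ := Function.update f a (fun y => f a y - c) with hf''
    have h1 : Tendsto (fun n => ∫ y, ∏ i, f' i (iter T (t n i) y) ∂μ) atTop
        (𝓝 (∏ i, ∫ y, f' i y ∂μ)) := by
      apply ih
      · intro i
        by_cases hi : i = a
        · subst hi; rw [hf', Function.update_self]; exact BM.const _
        · rw [hf', Function.update_of_ne hi]; exact hf i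
      · intro i
        by_cases hi : i = a
        · subst hi; rw [hf', Function.update_self]; exact S.spanned_const hx c
        · rw [hf', Function.update_of_ne hi]; exact hs i
      · intro i hi
        by_cases hia : i = a
        · subst hia; exact ⟨c, by rw [hf', Function.update_self]⟩
        · rw [hf', Function.update_of_ne hia]
          exact hc i (by simp [hia, hi])
    have h2 : Tendsto (fun n => ∫ y, ∏ i, f'' i (iter T (t n i) y) ∂μ) atTop (𝓝 0) := by
      apply S.corr_tendsto_zero hT hx hmix t ht f'' _ _ a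
      · rw [hf'', Function.update_self, integral_sub (hf a).integrable (integrable_const _)]
        simp [hcdef]
      · intro i
        by_cases hi : i = a
        · subst hi; rw [hf'', Function.update_self]; exact (hf i).sub (BM.const _)
        · rw [hf'', Function.update_of_ne hi]; exact hf i
      · intro i
        by_cases hi : i = a
        · subst hi; rw [hf'', Function.update_self]
          exact S.spanned_sub_const hx _ (hf i) (hs i) c
        · rw [hf'', Function.update_of_ne hi]; exact hs i
    have h3 : ∀ i, i ≠ a → f' i = f i := fun i hi => by rw [hf', Function.update_of_ne hi]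
    have h4 : ∀ i, i ≠ a → f'' i = f i := fun i hi => by rw [hf'', Function.update_of_ne hi]
    have hprod : ∏ i, ∫ y, f' i y ∂μ = ∏ i, ∫ y, f i y ∂μ := by
      refine Finset.prod_congr rfl fun i _ => ?_
      by_cases hi : i = a
      · subst hi; rw [hf', Function.update_self]; simp [hcdef]
      · rw [h3 i hi]
    have hsum : ∀ n, ∫ y, ∏ i, f i (iter T (t n i) y) ∂μ =
        (∫ y, ∏ i, f'' i (iter T (t n i) y) ∂μ) + ∫ y, ∏ i, f' i (iter T (t n i) y) ∂μ := by
      intro n
      rw [← integral_add]
      · congr 1
        funext y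
        rw [← Finset.mul_prod_erase Finset.univ (fun i => f i (iter T (t n i) y))
          (Finset.mem_univ a), ← Finset.mul_prod_erase Finset.univ
          (fun i => f' i (iter T (t n i) y)) (Finset.mem_univ a),
          ← Finset.mul_prod_erase Finset.univ (fun i => f'' i (iter T (t n i) y))
          (Finset.mem_univ a)]
        have e1 : ∏ i ∈ Finset.univ.erase a, f' i (iter T (t n i) y) =
            ∏ i ∈ Finset.univ.erase a, f i (iter T (t n i) y) :=
          Finset.prod_congr rfl fun i hi => by rw [h3 i (Finset.ne_of_mem_erase hi)]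
        have e2 : ∏ i ∈ Finset.univ.erase a, f'' i (iter T (t n i) y) =
            ∏ i ∈ Finset.univ.erase a, f i (iter T (t n i) y) :=
          Finset.prod_congr rfl fun i hi => by rw [h4 i (Finset.ne_of_mem_erase hi)]
        rw [e1, e2]
        have e3 : f' a (iter T (t n a) y) = c := by rw [hf', Function.update_self]
        have e4 : f'' a (iter T (t n a) y) = f a (iter T (t n a) y) - c := by
          rw [hf'', Function.update_self]
        rw [e3, e4]; ring
      · refine (BM.prod _ fun i _ => ?_).integrable
        refine BM.comp ?_ (measurable_iter T _)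
        by_cases hi : i = a
        · subst hi; rw [hf'', Function.update_self]; exact (hf i).sub (BM.const _)
        · rw [hf'', Function.update_of_ne hi]; exact hf i
      · refine (BM.prod _ fun i _ => ?_).integrable
        refine BM.comp ?_ (measurable_iter T _)
        by_cases hi : i = a
        · subst hi; rw [hf', Function.update_self]; exact BM.const _
        · rw [hf', Function.update_of_ne hi]; exact hf i
    simp_rw [hsum]
    rw [hprod] at h1
    have := h2.add h1
    rwa [zero_add] at this

end Static

/-- mixing of order `k` from the convergence of the correlations of bounded functions along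
sequences -/
theorem mixing_of_seq {μ : Measure X} [IsProbabilityMeasure μ] {T : X ≃ᵐ X} {k : ℕ}
    (h : ∀ t : ℕ → Fin k → ℤ, Gaps t → ∀ f : Fin k → X → ℂ, (∀ i, BM (f i)) →
      Tendsto (fun n => ∫ y, ∏ i, f i (iter T (t n i) y) ∂μ) atTop (𝓝 (∏ i, ∫ y, f i y ∂μ))) :
    Ext.MixingOfOrder μ T k := by
  intro B hB ε hε
  by_contra hcon
  push Not at hcon
  choose t ht1 ht2 using fun n : ℕ => hcon (n : ℤ)
  have hgaps : Gaps t := by
    intro i j hij
    exact tendsto_atTop_mono (fun n => ht1 n i j hij) tendsto_natCast_atTop_atTop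
  have h1 := h t hgaps (fun i => (B i).indicator (fun _ => (1 : ℂ))) (fun i =>
    ⟨measurable_const.indicator (hB i), 1, fun y => by
      by_cases hy : y ∈ B i
      · rw [Set.indicator_of_mem hy]; simp
      · rw [Set.indicator_of_notMem hy]; simp⟩)
  have e1 : ∀ n, ∫ y, ∏ i, (B i).indicator (fun _ => (1 : ℂ)) (iter T (t n i) y) ∂μ =
      ((μ.real (⋂ i, iter T (t n i) ⁻¹' B i) : ℝ) : ℂ) := by
    intro n
    have e : (fun y => ∏ i, (B i).indicator (fun _ => (1 : ℂ)) (iter T (t n i) y)) =
        (⋂ i, iter T (t n i) ⁻¹' B i).indicator (fun _ => (1 : ℂ)) := by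
      funext y
      by_cases hy : y ∈ ⋂ i, iter T (t n i) ⁻¹' B i
      · rw [Set.indicator_of_mem hy]
        rw [Set.mem_iInter] at hy
        refine Finset.prod_eq_one fun i _ => ?_
        exact Set.indicator_of_mem (show iter T (t n i) y ∈ B i from hy i) _
      · rw [Set.indicator_of_notMem hy]
        rw [Set.mem_iInter, not_forall] at hy
        obtain ⟨i, hi⟩ := hy
        refine Finset.prod_eq_zero (Finset.mem_univ i) ?_
        exact Set.indicator_of_notMem (show iter T (t n i) y ∉ B i from hi) _
    rw [e, integral_indicator_const _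
      (MeasurableSet.iInter fun i => (measurable_iter T _) (hB i))]
    simp
  have e2 : ∏ i, ∫ y, (B i).indicator (fun _ => (1 : ℂ)) y ∂μ =
      ((∏ i, μ.real (B i) : ℝ) : ℂ) := by
    push_cast
    refine Finset.prod_congr rfl fun i _ => ?_
    rw [integral_indicator_const _ (hB i)]
    simp
  simp_rw [e1] at h1
  rw [e2, Metric.tendsto_atTop] at h1
  obtain ⟨n, hn⟩ := h1 ε hε
  have h3 := hn n le_rfl
  rw [Complex.dist_eq, ← Complex.ofReal_sub, Complex.norm_real, Real.norm_eq_abs] at h3
  exact absurd h3 (not_lt.2 (ht2 n))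

/-- **Static theorem F.** A mixing transformation whose bounded functions lie in the closed span
of such a group of unimodular functions is mixing of all orders. -/
theorem Static.mixing {A : Type*} [AddCommGroup A] {ω : Measure G} [IsProbabilityMeasure ω]
    {T : X ≃ᵐ X} {x : G → X} (S : Static ω T x A) {μ : Measure X} [IsProbabilityMeasure μ]
    (hT : MeasurePreserving T μ μ) (hx : MeasurePreserving x ω μ)
    (hspan : ∀ f : X → ℂ, BM f → S.Spanned f) (hmix : Ext.MixingOfOrder μ T 2) (k : ℕ) :
    Ext.MixingOfOrder μ T k :=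
  mixing_of_seq fun t ht f hf =>
    S.corr_tendsto hT hx hmix t ht f hf fun i => hspan _ (hf i)

end Vale.Agent.P102.SF
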